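import Crest.Agent.X212.Lix26.Defs

/-!
# Row 212, LIX-NUM (helper99): the clauses of the numbers of the fillers, local form
-/

set_option autoImplicit false
set_option linter.unusedSectionVars false
noncomputable section
open scoped Manifold ContDiff Topology Real
open Set Function Filter MeasureTheory

namespace Crest.Agent.X212.Num99
open An Nd18 M Rf65 G75 Lix26
open Qab60 (Ab)

section job
variable {Wi : Type} {X : Mf 4} {A κ lam : Type} [Fintype A] [Fintype κ] [Fintype lam]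
  [DecidableEq lam] {M : Mark X A κ} {W : World M} {N : ML M lam} {Λ : Lns W N}
  {A' h : Type} [Fintype A'] [DecidableEq A'] [Fintype h] {r n : ℕ}
  (J : Job Wi Λ A' h r n) (c : M.Cl) (δ : ℝ) (l : A)

/-- abelian anti-self-dual fillers of the level `k` -/
def Ak (k : ℝ) (P : ℤ → ℤ → Prop) : Prop := ∀ z : J.Obc c, Go δ z {hp l false} →
  ∀ ξ, Ab (J.B c) (J.G c z.s) (W.pc c (hp l false)) z.x ξ → EA 0 z (hp l false) → kI z l = k →
    P (ia δ z (hp l false)) (idr δ z (hp l false))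

/-- flat fillers -/
def A0 (P : ℤ → ℤ → Prop) : Prop := ∀ z : J.Obc c, Go δ z {hp l false} → Fl z (hp l false) →
  P (ia δ z (hp l false)) (idr δ z (hp l false))

/-- the numbers (`Lix26.NumAt` without the solution) -/
def NumL : Prop := ∀ z : J.Obc c, Go δ z {hp l false} →
  (Fl z (hp l false) → 0 ≤ ia δ z (hp l false) ∧ 0 ≤ idr δ z (hp l false)) ∧
  ∀ ξ, Ab (J.B c) (J.G c z.s) (W.pc c (hp l false)) z.x ξ → EA 0 z (hp l false) →
    (kI z l = 1 / 4 → 2 ≤ ia δ z (hp l false) ∧ 0 ≤ idr δ z (hp l false)) ∧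
    (kI z l = 1 → 1 ≤ ia δ z (hp l false) ∧ 3 ≤ ia δ z (hp l false) + idr δ z (hp l false))

end job

variable {κ lam : Type} [Fintype κ] [Fintype lam] [DecidableEq lam] (Lm : LM κ lam)

/-- a property of the insides of all broken lens walls -/
def AllL (P : ∀ {S : Scene Lm} {D : S.Dat} {i Wi} {A' h : Type} [Fintype A'] [DecidableEq A']
    [Fintype h] {r n} (_ : Job Wi (D.Λ i) A' h r n) (_ : S.M.Cl) (_ : ℝ) (_ : S.A), Prop) : Prop :=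
  ∀ (S : Scene Lm) (D : S.Dat) i Wi (A' h : Type) [Fintype A'] [DecidableEq A'] [Fintype h] r n
    (J : Job Wi (D.Λ i) A' h r n) (c : S.M.Cl) (l : S.ls), S.OK → J.OK → cylW c ⊆ J.m.1 →
    l.1 ∈ c.1 → Nl J l → PY (J.xs l).D 0 → (∃ cv : Rod53.S3' → (J.xs l).Y.M, Cv4 cv) →
    ∃ δ₀ > 0, ∀ δ ∈ Ioc 0 δ₀, P J c δ l

/-- **CLAUSE FA** -/
def FaS : Prop := AllL Lm fun J c δ l => A0 J c δ l fun a _ => 0 ≤ a
/-- **CLAUSE FD** -/
def FdS : Prop := AllL Lm fun J c δ l => A0 J c δ l fun _ d => 0 ≤ d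
/-- **CLAUSE QA** -/
def QaS : Prop := AllL Lm fun J c δ l => Ak J c δ l (1 / 4) fun a _ => 2 ≤ a
/-- **CLAUSE QD** -/
def QdS : Prop := AllL Lm fun J c δ l => Ak J c δ l (1 / 4) fun _ d => 0 ≤ d
/-- **CLAUSE ONE** -/
def OneS : Prop := AllL Lm fun J c δ l => Ak J c δ l 1 fun a d => 1 ≤ a ∧ 3 ≤ a + d

/-- the output (= `Lx51.NumLS`) -/
def NumLS : Prop := ∀ (S : Scene Lm) (D : S.Dat) i Wi r n
  (J : Job Wi (D.Λ i) (S.A ⊕ Unit) S.ls r n) (c : S.M.Cl) (l : S.ls), S.OK → J.OK →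
  cylW c ⊆ J.m.1 → l.1 ∈ c.1 → Nl J l → ∃ δ₀ > 0, ∀ δ ∈ Ioc 0 δ₀, NumL J c δ l

variable {Lm}

theorem AllL.and {P Q : ∀ {S : Scene Lm} {D : S.Dat} {i Wi} {A' h : Type} [Fintype A']
    [DecidableEq A'] [Fintype h] {r n} (_ : Job Wi (D.Λ i) A' h r n) (_ : S.M.Cl) (_ : ℝ) (_ : S.A),
    Prop} (p : AllL Lm P) (q : AllL Lm Q) : AllL Lm fun J c δ l => P J c δ l ∧ Q J c δ l :=
  fun S D i Wi A' h _ _ _ r n J c l a b d e f g k =>
    let ⟨u, u0, hu⟩ := p S D i Wi A' h r n J c l a b d e f g k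
    let ⟨v, v0, hv⟩ := q S D i Wi A' h r n J c l a b d e f g k
    ⟨min u v, lt_min u0 v0, fun δ hδ => ⟨hu δ ⟨hδ.1, hδ.2.trans (min_le_left _ _)⟩,
      hv δ ⟨hδ.1, hδ.2.trans (min_le_right _ _)⟩⟩⟩

theorem allL (fa : FaS Lm) (fd : FdS Lm) (qa : QaS Lm) (qd : QdS Lm) (o1 : OneS Lm) :
    AllL Lm fun J c δ l => NumL J c δ l := fun S D i Wi A' h _ _ _ r n J c l a b d e f g k =>
  let ⟨u, u0, hu⟩ := (((AllL.and fa fd).and qa).and qd).and o1 S D i Wi A' h r n J c l a b d e f g k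
  ⟨u, u0, fun δ hδ z go =>
    let ⟨⟨⟨⟨h1, h2⟩, h3⟩, h4⟩, h5⟩ := hu δ hδ
    ⟨fun fl => ⟨h1 z go fl, h2 z go fl⟩, fun ξ ab ea =>
      ⟨fun k => ⟨h3 z go ξ ab ea k, h4 z go ξ ab ea k⟩, h5 z go ξ ab ea⟩⟩⟩

/-- **ASSEMBLY** -/
theorem numLS (py : PylStmt Lm) (fa : FaS Lm) (fd : FdS Lm) (qa : QaS Lm) (qd : QdS Lm)
    (o1 : OneS Lm) : NumLS Lm := fun S D i Wi r n J c l a b d e f =>
  allL fa fd qa qd o1 S D i Wi _ _ r n J c l a b d e f (py S D i Wi r n J a b l l.2).1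
    (py S D i Wi r n J a b l l.2).2

/-- **BRIDGE** -/
theorem numStmt (H : NumLS Lm) : NumStmt Lm := fun S D i Wi r n J X a₀ j n₀ T c G ha pj => by
  by_cases hm : cylW c ⊆ J.m.1
  · have k : ∀ l : S.ls, ∀ᶠ δ in 𝓝[>] (0 : ℝ), l.1 ∈ c.1 → NumL J c δ l := fun l => by
      by_cases hl : l.1 ∈ c.1
      · obtain ⟨u, u0, hu⟩ := H S D i Wi r n J c l G.sc G.ok hm hl (pj.nil l ⟨hl, G.sc.lsp l l.2⟩)
        exact eventually_of_mem (Ioc_mem_nhdsGT u0) fun δ hδ _ => hu δ hδ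
      · exact .of_forall fun _ k => (hl k).elim
    obtain ⟨u, u0, hu⟩ := mem_nhdsGT_iff_exists_Ioc_subset.1 (eventually_all.2 k)
    exact ⟨u, u0, fun δ hδ => An.Sml.of fun _ _ _ _ l hl hc _ _ σ _ q y z _ _ go =>
      hu hδ ⟨l, hl⟩ hc z go⟩
  · exact ⟨1, one_pos, fun δ _ => An.Sml.of fun _ _ _ _ l _ _ _ _ σ hσ q y z hy _ _ =>
      (hm fun a ha => let ⟨_, k, _⟩ := G.ok.inf σ hσ y.s hy.ov.1 a (hy.inf.ge ha.1)
        G.ok.mem _ _ k ha.2).elim⟩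

end Crest.Agent.X212.Num99
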