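import Crest.Agent.X212.Lns95.Tw1
import Crest.Agent.X212.Add46.Dif
import Crest.Agent.X212.Add46.Rad
import Crest.Agent.X212.Num99.Defs

/-!
# Row 212, LIX-NUM (helper99): the level one clause from the flat point of the flipped line
-/

set_option autoImplicit false
set_option linter.unusedSectionVars false
noncomputable section
open Set Function

namespace Crest.Agent.X212.Num99
open An Nd18 M Rf65 G75 Lix26 Lx95 Hd82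
open Qab60 (Ab)

variable {κ lam : Type} [Fintype κ] [Fintype lam] [DecidableEq lam] (Lm : LM κ lam)

/-- **FLIP**: a flat point of the flipped line with the limit of a point of level one -/
def FlipS : Prop := ∀ (S : Scene Lm) (D : S.Dat) i Wi (A' h : Type) [Fintype A'] [DecidableEq A']
  [Fintype h] r n (J : Job Wi (D.Λ i) A' h r n) (c : S.M.Cl) (l : S.ls)
  (G : Ink3.XG Empty (S.N (S.fl l i))), S.OK → J.OK → cylW c ⊆ J.m.1 → l.1 ∈ c.1 →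
  Twin J (twJ J (D.Λ (S.fl l i)) G) l → ∀ δ > (0 : ℝ), ∀ z : J.Obc c, Go δ z {hp l.1 false} →
  ∀ ξ, Ab (J.B c) (J.G c z.s) (D.W.pc c (hp l.1 false)) z.x ξ → EA 0 z (hp l.1 false) →
  kI z l.1 = 1 → ∃ z' : (twJ J (D.Λ (S.fl l i)) G).Obc c, (J.Θ z'.s).1 = (J.Θ z.s).1 ∧
    Go δ z' {hp l.1 false} ∧ Fl z' (hp l.1 false) ∧ HEq (z'.β l false) (z.β l false)

variable {Lm}

theorem nx_tr {Wi : Type} {T : Xs Wi κ lam} {T' : Xs Empty κ lam} (e : nx T' = nx T)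
    (a : Ink3.Nil T.N) (b : PY T.D 0) (c : ∃ cv : Rod53.S3' → T.Y.M, Cv4 cv) :
    (Ink3.Nil T'.N ∧ T'.ty = 0) ∧ PY T'.D 0 ∧ ∃ cv : Rod53.S3' → T'.Y.M, Cv4 cv := by
  obtain ⟨Y, C, N, t⟩ := T
  obtain ⟨Y', C', N', t'⟩ := T'
  cases e
  exact ⟨⟨a, funext fun x => x.elim⟩, b, c⟩

/-- the local index facts -/
theorem locS (L : IxL κ (lam ⊕ lam) 8) : AllL Lm fun J c δ l => Add46.LocAt J c δ l :=
  fun _ D i _ _ _ _ _ _ _ _ _ _ l hS hJ hm hl hN py _ =>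
    Add46.loc L D.nrm (D.lnrm i) hJ hm ⟨hl, hS.lsp l l.2⟩ (piece hS l hl) hN.1 ⟨0, py⟩

/-- **CLAUSE ONE** from FLIP -/
theorem oneS (L : IxL κ (lam ⊕ lam) 8) (fl : FlipS Lm) (fa : FaS Lm) (fd : FdS Lm) : OneS Lm := by
  intro S D i Wi A' h _ _ _ r n J c l hS hJ hm hl hN py cv
  obtain ⟨G, t⟩ := twin_ex hS l (i' := S.fl l i) hJ (.inr rfl)
  have hJ' := twJ_ok (Λ' := D.Λ (S.fl l i)) hJ G
  obtain ⟨hN', py', cv'⟩ := nx_tr t.xs hN.1 py cv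
  obtain ⟨u₁, p₁, h₁⟩ := ((AllL.and fa fd).and (locS L)) S D _ _ A' h 0 0 _ c l hS hJ' hm hl hN' py' cv'
  obtain ⟨u₂, p₂, h₂⟩ := relF hS l L (Add46.rad Lm L)
    (fun _ => Ixc61.chStmt (by norm_num) (fun _ _ _ _ _ X => X.fred) Top36.kapStmt)
    (Inv14.pInv κ (lam ⊕ lam) (k := 8) (by norm_num)) hJ hJ' (.inr rfl) t hl hl hN.1 ⟨0, py⟩
  obtain ⟨u₃, p₃, h₃⟩ := locS L S D i Wi A' h r n J c l hS hJ hm hl hN py cv
  refine ⟨min u₁ (min u₂ u₃), by positivity, fun δ hδ z g ξ A ea k => ?_⟩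
  obtain ⟨q₁, q₂, q₃⟩ : δ ≤ u₁ ∧ δ ≤ u₂ ∧ δ ≤ u₃ := by simpa only [le_min_iff] using hδ.2
  obtain ⟨z', e, g', f, hβ⟩ := fl S D i Wi A' h r n J c l G hS hJ hm hl t δ hδ.1 z g ξ A ea k
  have k' : kI z' l.1 = 0 := MeasureTheory.setIntegral_eq_zero_of_forall_eq_zero fun x hx => by
    rw [Job.Obc.kd, Md.kd, f x hx, inner_zero_left, mul_zero]
  have bs : Rdc90.Bs (J.xs l).D (z.β l false) :=
    g.bs (⟨l, hl, hS.lsp l l.2⟩, false) ⟨_, rfl, Kl48.hp_self⟩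
  obtain ⟨⟨b1, b2⟩, b3⟩ := h₁ δ ⟨hδ.1, q₁⟩
  obtain ⟨-, a1, a2⟩ := (h₂ δ ⟨hδ.1, q₂⟩).num e g g' hβ (Pnt66.eqv_refl bs.ok bs.adm)
    ((h₃ δ ⟨hδ.1, q₃⟩).ex z g) (b3.ex z' g')
  rw [k, k'] at a1 a2
  have c1 : (0 : ℝ) ≤ ia δ z' (hp l.1 false) := Int.cast_nonneg (b1 z' g' f)
  have c2 : (0 : ℝ) ≤ idr δ z' (hp l.1 false) := Int.cast_nonneg (b2 z' g' f)
  exact ⟨Int.cast_le.1 (by push_cast; linarith : ((1 : ℤ) : ℝ) ≤ _),
    Int.cast_le.1 (by push_cast; linarith : ((3 : ℤ) : ℝ) ≤ _)⟩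

end Crest.Agent.X212.Num99
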